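import Vale.Agent.P150.Field

namespace Vale.Agent.Results.P150.FastMixingBelowHalf

open MeasureTheory Filter Topology Vale.Agent.P150

/-- For every fixed `β < 1 / 2`, with probability tending to one the spectral gap is of order one and
the mixing time of order `log n`; the lower bound on the gap and the upper bound on the mixing time
hold simultaneously for every external field; and for every fixed `β ≥ 0` the gap is at most one
and there is no mixing before `γ * log n`. -/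
theorem result :
    (∀ β : ℝ, 0 ≤ β → β < 1 / 2 → ∃ ρ γ C : ℝ, 0 < ρ ∧ 0 < γ ∧ 0 < C ∧
      Tendsto (fun n : ℕ => disorderLaw n
        {g | ¬ (ρ ≤ spectralGap β g ∧ spectralGap β g ≤ 1 ∧ MixedAt β g (C * Real.log n) ∧
          ∀ t ∈ Set.Icc 0 (γ * Real.log n), ¬ MixedAt β g t)}) atTop (𝓝 0)) ∧
    (∀ β : ℝ, 0 ≤ β → β < 1 / 2 → ∃ ρ C : ℝ, 0 < ρ ∧ 0 < C ∧
      Tendsto (fun n : ℕ => disorderLaw n
        {g | ¬ ∀ h : Fin n → ℝ, ρ ≤ fieldGap β g h ∧ FieldMixedAt β g h (C * Real.log n)})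
        atTop (𝓝 0)) ∧
    (∀ β : ℝ, 0 ≤ β → ∃ γ : ℝ, 0 < γ ∧
      Tendsto (fun n : ℕ => disorderLaw n
        {g | ¬ (spectralGap β g ≤ 1 ∧ ∀ t ∈ Set.Icc 0 (γ * Real.log n), ¬ MixedAt β g t)})
        atTop (𝓝 0)) :=
  ⟨fun _ h0 h1 => order_below_half h0 h1, fun _ h0 h1 => fast_below_half_field h0 h1,
    fun _ h => slow_log h⟩

end Vale.Agent.Results.P150.FastMixingBelowHalf
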