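import Vale.Agent.P150.Final

namespace Vale.Agent.Results.P150.SlowMixingFromCritical

open MeasureTheory Filter Topology Vale.Agent.P150

/-- For every fixed `β ≥ 1`, with probability tending to one `1 / gap ≥ n ^ a` and there is no
mixing up to time `n ^ a`, for some `a > 0`; for every `β > 1` both hold with `n ^ a` replaced by
`ε n * n`, for any sequence `ε` tending to zero. -/
theorem result :
    (∀ β : ℝ, 1 ≤ β → ∃ a : ℝ, 0 < a ∧
      Tendsto (fun n : ℕ => disorderLaw n {g | 1 < spectralGap β g * (n : ℝ) ^ a ∨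
        ∃ t ∈ Set.Icc 0 ((n : ℝ) ^ a), MixedAt β g t}) atTop (𝓝 0)) ∧
    (∀ β : ℝ, 1 < β → ∀ ε : ℕ → ℝ, Tendsto ε atTop (𝓝 0) →
      Tendsto (fun n : ℕ => disorderLaw n {g | 1 < spectralGap β g * (ε n * n) ∨
        ∃ t ∈ Set.Icc 0 (ε n * n), MixedAt β g t}) atTop (𝓝 0)) :=
  ⟨fun _ hβ => ⟨1 / 256, by norm_num, slow_from_one hβ⟩, fun _ hβ ε hε => slow_above_one hβ ε hε⟩

end Vale.Agent.Results.P150.SlowMixingFromCritical
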